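import Vale.Agent.Lib.P154Q.FullIff
import Vale.Agent.Lib.P154N.Main
import Vale.Agent.Lib.P154C.D4.Adv
import Vale.Agent.Lib.P154P.Tab.Slab

/-!
The reconstruction threshold for the Potts channels with three and four states on the rooted `d`-ary
tree and on the Poisson Galton-Watson tree: for `q = 3` with every admissible eigenvalue and for `q = 4`
with every eigenvalue `lam ≥ 0`, reconstruction holds exactly when `d * lam ^ 2 > 1`.
-/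

open Filter Topology Vale.Agent.Lib.P154

namespace Vale.Agent.Results.P154.A000_full

theorem result :
    (∀ d : ℕ, 2 ≤ d → ∀ lam : ℝ, -(1 / 2) ≤ lam → lam ≤ 1 →
      ((d : ℝ) * lam ^ 2 ≤ 1 → Tendsto (advantage d 3 lam) atTop (𝓝 0))
        ∧ (1 < (d : ℝ) * lam ^ 2 → ∃ c : ℝ, 0 < c ∧ ∀ n, c ≤ advantage d 3 lam n))
    ∧ (∀ d : ℕ, 2 ≤ d → ∀ lam : ℝ, 0 ≤ lam → lam ≤ 1 →
      ((d : ℝ) * lam ^ 2 ≤ 1 → Tendsto (advantage d 4 lam) atTop (𝓝 0))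
        ∧ (1 < (d : ℝ) * lam ^ 2 → ∃ c : ℝ, 0 < c ∧ ∀ n, c ≤ advantage d 4 lam n))
    ∧ (∀ d lam : ℝ, 0 < d → -(1 / 2) ≤ lam → lam ≤ 1 →
      (∀ n, Summable (fun T : GWTree n => gwWeight (poissonLaw d) n T * gwTreeAdvantage 3 lam n T))
        ∧ (d * lam ^ 2 ≤ 1 → Tendsto (gwAdvantage (poissonLaw d) 3 lam) atTop (𝓝 0))
        ∧ (1 < d * lam ^ 2 → ∃ c : ℝ, 0 < c ∧ ∀ n, c ≤ gwAdvantage (poissonLaw d) 3 lam n))
    ∧ (∀ d lam : ℝ, 0 < d → 0 ≤ lam → lam ≤ 1 →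
      (∀ n, Summable (fun T : GWTree n => gwWeight (poissonLaw d) n T * gwTreeAdvantage 4 lam n T))
        ∧ (d * lam ^ 2 ≤ 1 → Tendsto (gwAdvantage (poissonLaw d) 4 lam) atTop (𝓝 0))
        ∧ (1 < d * lam ^ 2 → ∃ c : ℝ, 0 < c ∧ ∀ n, c ≤ gwAdvantage (poissonLaw d) 4 lam n)) := by
  refine Vale.Agent.Lib.P154Q.full_iff_of
    (Vale.Agent.Lib.P154C.D4.adv_d4 (by norm_num) le_rfl) (fun mu h4 h5 => ?_)
  rcases le_total mu (197 / 400) with h | h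
  · exact Vale.Agent.Lib.P154N.poi_crit2 h4.le h
  · exact Vale.Agent.Lib.P154P.Tab.poi_slab h h5

end Vale.Agent.Results.P154.A000_full
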